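import Vale.Agent.P295.MathlibUsed

/-!
P295: coordinates and stable coordinates over an arbitrary commutative base ring.
-/

open MvPolynomial

namespace Vale.Agent.P295

universe u

variable {R : Type u} [CommRing R] {n : ℕ}

/-- `f ∈ R[x_1..x_n]` is a coordinate over `R` -/
def IsCoordinateOver (f : MvPolynomial (Fin n) R) : Prop :=
  ∃ (i : Fin n) (e : MvPolynomial (Fin n) R ≃ₐ[R] MvPolynomial (Fin n) R), e f = X i

/-- `f ∈ R[x_1..x_n]` is a coordinate of `R[x_1..x_{n+m}]` over `R` -/
def IsStableCoordinateOver (m : ℕ) (f : MvPolynomial (Fin n) R) : Prop :=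
  IsCoordinateOver (rename (Fin.castAdd m) f : MvPolynomial (Fin (n + m)) R)

/-- for every `c ∈ R` the fibre `R[x_1..x_n]/(f - c)` times the line is the affine space
`R[x_1..x_n]` over `R` -/
def FibresTimesLineTrivial (f : MvPolynomial (Fin n) R) : Prop :=
  ∀ c : R, Nonempty (Polynomial (MvPolynomial (Fin n) R ⧸ Ideal.span {f - C c}) ≃ₐ[R]
    MvPolynomial (Fin n) R)

/-- for some `c ∈ R` the fibre `R[x_1..x_n]/(f - c)` is the affine space `R[x_1..x_{n-1}]`
over `R` -/
def HasTrivialFibre (f : MvPolynomial (Fin n) R) : Prop :=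
  ∃ c : R, Nonempty ((MvPolynomial (Fin n) R ⧸ Ideal.span {f - C c}) ≃ₐ[R]
    MvPolynomial (Fin (n - 1)) R)

/-- the rational polynomial `f` as a polynomial over the `ℚ`-algebra `R` -/
noncomputable def extend (R : Type u) [CommRing R] [Algebra ℚ R] (f : MvPolynomial (Fin n) ℚ) :
    MvPolynomial (Fin n) R :=
  map (algebraMap ℚ R) f

end Vale.Agent.P295
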