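import Vale.Agent.P293.H303.Main
import Vale.Agent.P295.Defs
import Vale.Agent.P295.U165.Defs

/-!
P295: one `f ∈ ℚ[x_1..x_n]`, `n ≥ 5`, which is a 1-stable coordinate and not a coordinate over
every nonzero commutative `ℚ`-algebra `R`; no fibre of `f` over `R` is an affine space.
-/

open MvPolynomial TensorProduct

namespace Vale.Agent.P295.U165

universe u v w

section general

/-- the fibre `R[x_1..x_n]/(f - c)` of `f` over `c ∈ R` -/
abbrev FibreOver {R : Type u} [CommRing R] {n : ℕ} (f : MvPolynomial (Fin n) R) (c : R) : Type u :=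
  MvPolynomial (Fin n) R ⧸ Ideal.span {f - C c}

variable (R : Type u) [CommRing R]

/-- `R[x_0..x_n] = R[x_0..x_{n-1}][x_n]` -/
theorem exists_last (n : ℕ) : ∃ L : MvPolynomial (Fin (n + 1)) R ≃ₐ[R]
    Polynomial (MvPolynomial (Fin n) R),
    (∀ p, L (rename (Fin.castAdd 1) p) = Polynomial.C p) ∧ L (X (Fin.last n)) = Polynomial.X := by
  refine ⟨(renameEquiv R (finRotate (n + 1))).trans (finSuccEquiv R n), fun p => ?_, ?_⟩
  · have h : (((renameEquiv R (finRotate (n + 1))).trans (finSuccEquiv R n)).toAlgHom.comp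
        (rename (Fin.castAdd 1) : MvPolynomial (Fin n) R →ₐ[R] _)) =
        Polynomial.CAlgHom := by
      apply MvPolynomial.algHom_ext
      intro i
      have h1 : finRotate (n + 1) (Fin.castAdd 1 i) = i.succ := by
        rw [finRotate_apply]
        exact Fin.coeSucc_eq_succ
      simp only [AlgHom.comp_apply, rename_X]
      change finSuccEquiv R n (renameEquiv R (finRotate (n + 1)) (X (Fin.castAdd 1 i))) = _
      rw [renameEquiv_apply, rename_X, h1, finSuccEquiv_X_succ]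
      rfl
    exact DFunLike.congr_fun h p
  · change finSuccEquiv R n (renameEquiv R (finRotate (n + 1)) (X (Fin.last n))) = _
    rw [renameEquiv_apply, rename_X, finRotate_last, finSuccEquiv_X_zero]

/-- any variable may be taken as the polynomial variable -/
theorem exists_var (n : ℕ) (i : Fin (n + 1)) : ∃ L : MvPolynomial (Fin (n + 1)) R ≃ₐ[R]
    Polynomial (MvPolynomial (Fin n) R), L (X i) = Polynomial.X := by
  refine ⟨(renameEquiv R (Equiv.swap i 0)).trans (finSuccEquiv R n), ?_⟩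
  change finSuccEquiv R n (renameEquiv R (Equiv.swap i 0) (X i)) = _
  rw [renameEquiv_apply, rename_X, Equiv.swap_apply_left, finSuccEquiv_X_zero]

variable {R}

/-- in `A[w] = R[x_0..x_n]` the element `w` is a 1-stable coordinate -/
theorem stable_of_iso {A : Type v} [CommRing A] [Algebra R A] (n : ℕ)
    (e : Polynomial A ≃ₐ[R] MvPolynomial (Fin (n + 1)) R) :
    IsStableCoordinateOver 1 (e Polynomial.X) := by
  obtain ⟨L, hL1, hL2⟩ := exists_last R (n + 1)
  refine ⟨Fin.last (n + 1), (L.trans ((Polynomial.mapAlgEquiv e.symm).trans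
    (((Polynomial.Bivariate.swap (R := A)).restrictScalars R).trans
      ((Polynomial.mapAlgEquiv e).trans L.symm)))), ?_⟩
  change L.symm (Polynomial.mapAlgEquiv e (Polynomial.Bivariate.swap (R := A)
    (Polynomial.mapAlgEquiv e.symm (L (rename (Fin.castAdd 1) (e Polynomial.X)))))) = _
  rw [hL1]
  have e1 : Polynomial.mapAlgEquiv e.symm (Polynomial.C (e Polynomial.X)) =
      (Polynomial.C Polynomial.X : Polynomial (Polynomial A)) := by
    simp
  rw [e1, Polynomial.Bivariate.swap_X]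
  have e2 : Polynomial.mapAlgEquiv e (Polynomial.X : Polynomial (Polynomial A)) =
      Polynomial.X := by simp
  rw [e2, ← hL2, AlgEquiv.symm_apply_apply]

/-- the fibres of `w` in `A[w] = R[x_1..x_n]` -/
theorem fibre_equiv {A : Type v} [CommRing A] [Algebra R A] {n : ℕ}
    (e : Polynomial A ≃ₐ[R] MvPolynomial (Fin n) R) (c : R) :
    Nonempty (FibreOver (e Polynomial.X) c ≃ₐ[R] A) := by
  have h : Ideal.span {e Polynomial.X - C c} =
      Ideal.map (e : Polynomial A →+* MvPolynomial (Fin n) R)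
        (Ideal.span {Polynomial.X - Polynomial.C (algebraMap R A c)}) := by
    rw [Ideal.map_span, Set.image_singleton]
    congr 2
    change _ = e (Polynomial.X - Polynomial.C (algebraMap R A c))
    have h2 : (Polynomial.C (algebraMap R A c) : Polynomial A) = algebraMap R (Polynomial A) c :=
      rfl
    rw [map_sub, h2, AlgEquiv.commutes]
    rfl
  exact ⟨((Ideal.quotientEquivAlg _ _ e h).symm).trans
    ((Polynomial.quotientSpanXSubCAlgEquiv (algebraMap R A c)).restrictScalars R)⟩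

/-- a coordinate has fibres `R^[n]` -/
theorem fibre_of_coordinate {n : ℕ} {f : MvPolynomial (Fin (n + 1)) R}
    (h : IsCoordinateOver f) (c : R) :
    Nonempty (FibreOver f c ≃ₐ[R] MvPolynomial (Fin n) R) := by
  obtain ⟨i, φ, hφ⟩ := h
  obtain ⟨M, hM⟩ := exists_var R n i
  have h2 : (M.symm.trans φ.symm) Polynomial.X = f := by
    change φ.symm (M.symm Polynomial.X) = f
    rw [← hM, AlgEquiv.symm_apply_apply, ← hφ, AlgEquiv.symm_apply_apply]
  have h3 := fibre_equiv (M.symm.trans φ.symm) c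
  rwa [h2] at h3

end general

/-- base change of a stable isomorphism, with the variable -/
theorem stable_R {A : Type} [CommRing A] [Algebra ℚ A] {n : ℕ}
    (e : Polynomial A ≃ₐ[ℚ] MvPolynomial (Fin n) ℚ) (R : Type v) [CommRing R] [Algebra ℚ R] :
    ∃ e' : Polynomial (R ⊗[ℚ] A) ≃ₐ[R] MvPolynomial (Fin n) R,
      e' Polynomial.X = map (algebraMap ℚ R) (e Polynomial.X) := by
  let e1 : Polynomial (R ⊗[ℚ] A) ≃ₐ[R] (R ⊗[ℚ] A) ⊗[ℚ] Polynomial ℚ :=
    (polyEquivTensor' ℚ (R ⊗[ℚ] A)).restrictScalars R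
  let e2 : (R ⊗[ℚ] A) ⊗[ℚ] Polynomial ℚ ≃ₐ[R] R ⊗[ℚ] (A ⊗[ℚ] Polynomial ℚ) :=
    Algebra.TensorProduct.assoc ℚ ℚ R R A (Polynomial ℚ)
  let e3 : R ⊗[ℚ] (A ⊗[ℚ] Polynomial ℚ) ≃ₐ[R] R ⊗[ℚ] MvPolynomial (Fin n) ℚ :=
    Algebra.TensorProduct.congr AlgEquiv.refl ((polyEquivTensor ℚ A).symm.trans e)
  refine ⟨((e1.trans e2).trans e3).trans (MvPolynomial.algebraTensorAlgEquiv ℚ R), ?_⟩
  have h1 : e1 Polynomial.X = 1 ⊗ₜ Polynomial.X := by
    have h : (polyEquivTensor' ℚ (R ⊗[ℚ] A)).symm (1 ⊗ₜ Polynomial.X) =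
        (Polynomial.X : Polynomial (R ⊗[ℚ] A)) := by
      rw [coe_polyEquivTensor'_symm, polyEquivTensor_symm_apply_tmul_eq_smul, one_smul,
        Polynomial.map_X]
    change polyEquivTensor' ℚ (R ⊗[ℚ] A) Polynomial.X = _
    rw [← h, AlgEquiv.apply_symm_apply]
  have h2 : e2 (1 ⊗ₜ Polynomial.X) = 1 ⊗ₜ (1 ⊗ₜ Polynomial.X) := rfl
  have h3 : e3 (1 ⊗ₜ (1 ⊗ₜ Polynomial.X)) = 1 ⊗ₜ (e Polynomial.X) := by
    have h : (polyEquivTensor ℚ A).symm (1 ⊗ₜ Polynomial.X) = (Polynomial.X : Polynomial A) := by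
      rw [polyEquivTensor_symm_apply_tmul_eq_smul, one_smul, Polynomial.map_X]
    change (1 : R) ⊗ₜ[ℚ] (e ((polyEquivTensor ℚ A).symm (1 ⊗ₜ Polynomial.X))) = _
    rw [h]
  change MvPolynomial.algebraTensorAlgEquiv ℚ R (e3 (e2 (e1 Polynomial.X))) = _
  rw [h1, h2, h3, MvPolynomial.algebraTensorAlgEquiv_tmul, one_smul]

/-- **the universal example**, one base ring -/
theorem universal_aux (m : ℕ) (e : Polynomial (Vale.Agent.P293.H303.AQ m) ≃ₐ[ℚ]
      MvPolynomial (Fin (4 + m + 1)) ℚ) (R : Type u) [CommRing R] [Algebra ℚ R] :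
      IsStableCoordinateOver 1 (extend R (e Polynomial.X)) ∧
      FibresTimesLineTrivial (extend R (e Polynomial.X)) ∧
      (Nontrivial R → ¬ IsCoordinateOver (extend R (e Polynomial.X)) ∧
        ¬ HasTrivialFibre (extend R (e Polynomial.X))) := by
  obtain ⟨e', he'⟩ := stable_R e R
  rw [extend, ← he']
  have key : ∀ c : R, Nontrivial R → ¬ Nonempty (FibreOver (e' Polynomial.X) c ≃ₐ[R]
      MvPolynomial (Fin (4 + m)) R) := by
    rintro c _ ⟨g⟩
    obtain ⟨a⟩ := fibre_equiv e' c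
    exact Vale.Agent.P293.H303.not_affine_R m R ⟨a.symm.trans g⟩
  refine ⟨stable_of_iso _ e', fun c => ?_, fun hR =>
    ⟨fun hc => key 0 hR (fibre_of_coordinate hc 0), fun ⟨c, hc⟩ => key c hR hc⟩⟩
  obtain ⟨a⟩ := fibre_equiv e' c
  exact ⟨(Polynomial.mapAlgEquiv a).trans e'⟩

/-- **the universal example** -/
theorem universal (n : ℕ) (hn : 5 ≤ n) : ∃ f : MvPolynomial (Fin n) ℚ,
    (IsStableCoordinateOfOrder 1 (extend ℂ f) ∧ IsStableCoordinate (extend ℂ f) ∧
      ¬ IsCoordinate (extend ℂ f)) ∧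
    ∀ (R : Type u) [CommRing R] [Algebra ℚ R],
      IsStableCoordinateOver 1 (extend R f) ∧ FibresTimesLineTrivial (extend R f) ∧
      (Nontrivial R → ¬ IsCoordinateOver (extend R f) ∧ ¬ HasTrivialFibre (extend R f)) := by
  obtain ⟨m, rfl⟩ : ∃ m, n = 4 + m + 1 := ⟨n - 5, by omega⟩
  obtain ⟨e⟩ := Vale.Agent.P293.H303.polyAQ m
  obtain ⟨h1, -, h2⟩ := universal_aux m e ℂ
  exact ⟨e Polynomial.X, ⟨h1, ⟨1, le_refl 1, h1⟩, (h2 inferInstance).1⟩,
    fun R _ _ => universal_aux m e R⟩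

end Vale.Agent.P295.U165
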